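import Vale.Agent.P281.H723.FS.Defs

/-! P281: the definitions of the final statement for log canonical pairs. -/

namespace Vale.Agent.P281.FS

open scoped Manifold ContDiff Topology ComplexOrder
open Filter Set

noncomputable section

section Two

variable (E E₀ : Type) [NormedAddCommGroup E] [NormedSpace ℂ E]
  [NormedAddCommGroup E₀] [NormedSpace ℂ E₀]
variable {X F : Type} [TopologicalSpace X] [ChartedSpace E X]
  [TopologicalSpace F] [ChartedSpace E₀ F]

/-- `S b` are sections of `m K_X + ∑ k(D) D`, `ι : F → X` is holomorphic (the identity of `X`, or a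
fibre).  Near every point of `F`, `S b ∘ ι` is `(∏ g_i ^ a_i) H_b` in a frame of this line bundle
(`e D` are local equations of the divisors `D`), where the `H_b` have no common zero and the
hypersurfaces `g_i = 0` of `F` are smooth: the fixed divisor of the `S b ∘ ι` is locally
`∑ a_i {g_i = 0}`, and the moving part is generated by the `H_b`.  Moreover each hypersurface
`g_i = 0` is contracted by the map `[H]` (with tangent vectors satisfying `R`), or this map has rank
less than `ν` on it, and the map `[S] ∘ ι` has rank at least `ν` at some point (`d = dim F`). -/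
def FixOne (d ν m : ℕ) (k : Set X → ℕ) (ι : F → X) {N : ℕ} (S : Fin N → X → ℂ)
    (R : F → E₀ → Prop) : Prop :=
  HasRank E₀ ν k ι S ∧
    ∀ x : F, ∃ (T : Finset (Set X)) (e : Set X → X → ℂ) (r : ℕ) (g : Fin r → F → ℂ)
      (a : Fin r → ℕ) (H : Fin N → F → ℂ),
      (∀ D, k D ≠ 0 → D ∈ T) ∧ (∀ D ∈ T, Eqn E D (e D) (ι x)) ∧
      (∀ i, HolAt E₀ (g i) x ∧ NZ E₀ (g i) x) ∧ (∀ b, HolAt E₀ (H b) x) ∧ (∃ b, H b x ≠ 0) ∧
      ∀ᶠ z in 𝓝 x, Fr E m k T e S g a H (ι x) (ι z) z ∧
        ∀ i, g i z = 0 → DegAt E₀ d ν (g i) H (R z) z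

end Two

section Three

variable {X F : Type} [TopologicalSpace X] [TopologicalSpace F]

/-- `S` is a good system for `(X, Δ)` (`ι = id`), or for the fibre `ι : F → X`: the components of the
fixed divisor are contracted by `([H], β)`, or the map `[H]` has rank less than `ν` on them, where
`β ≥ 0` is a closed form, `β > 0` on a dense set, and the map `[S] ∘ ι` has rank at least `ν` at some
point. -/
def GoodOne (n d m : ℕ) [ChartedSpace (Cm n) X] [ChartedSpace (Cm d) F] (k : Set X → ℕ)
    (ι : F → X) {N : ℕ} (S : Fin N → X → ℂ) : Prop :=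
  ∃ (ν : ℕ) (β : Form d F), IsSemiKahler β ∧
    FixOne (Cm n) (Cm d) d ν m k ι S fun z => InKer (atx β z)

/-- `S` is a system of sections of `m (K_X + Δ)`, good for `(X, Δ)`, and good for the fibre
`ι : F → X`, or with fixed divisor transversal to `F` and covered by rational curves: `(X, Δ)` and
`(F, Δ|_F)` have good minimal models. -/
def HasGoodOne (n d : ℕ) [ChartedSpace (Cm n) X] [ChartedSpace (Cm d) F] (Δ : Set X → ℝ)
    (ι : F → X) : Prop :=
  ∃ (m N : ℕ) (k : Set X → ℕ) (S : Fin N → X → ℂ), 0 < m ∧ (∀ D, k D = m * Δ D) ∧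
    (∀ b, IsSection (Cm n) (fun D x g => Eqn (Cm n) D g x) m k (S b)) ∧
    GoodOne n n m k id S ∧ (GoodOne n d m k ι S ∨ RatFix n d m k Δ ι S)

end Three

end

end Vale.Agent.P281.FS
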