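import Vale.Agent.P281.H713.TL.Iface
import Vale.Agent.P281.H167.RC.Defs

/-! P281: the final theorem for log canonical pairs with one system of sections of `m (K_X + Δ)`, as a
proposition. -/

open scoped Manifold ContDiff Topology ComplexOrder
open Set Filter Vale.Agent.P281 Vale.Agent.P272.K Vale.Agent.P299

noncomputable section

namespace Vale.Agent.P281.H723.FL

open Vale.Agent.P281.H713 Vale.Agent.P281.H167 Vale.Agent.P281.H713.TL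

/-- **Theorem LC**. -/
def MainPartLC : Prop := ∀ (n p d : ℕ) (_ : n = p + d) (X Z Y F : Type)
  [TopologicalSpace X] [T2Space X] [CompactSpace X] [ConnectedSpace X]
  [ChartedSpace (Cm n) X] [IsManifold 𝓘(ℂ, Cm n) ω X]
  [TopologicalSpace Z] [ChartedSpace (Cm n) Z] [IsManifold 𝓘(ℂ, Cm n) ω Z]
  [TopologicalSpace Y] [T2Space Y] [ConnectedSpace Y]
  [ChartedSpace (Cm p) Y] [IsManifold 𝓘(ℂ, Cm p) ω Y]
  [TopologicalSpace F] [T2Space F] [CompactSpace F] [ConnectedSpace F]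
  [ChartedSpace (Cm d) F] [IsManifold 𝓘(ℂ, Cm d) ω F]
  (χ : Chart n X → Cm n → Matrix (Fin n) (Fin n) ℂ) (_ : IsKahler χ)
  (Δ : Set X → ℝ) (_ : J.IsSNC (Cm n) Δ)
  (m N : ℕ) (_ : 0 < m) (k : Set X → ℕ) (_ : ∀ D, (k D : ℝ) = m * Δ D) (S : Fin N → X → ℂ)
  (_ : ∀ b, J.IsSection (Cm n) (fun (D : Set X) z g => J.IsLocalEq (Cm n) D g z) m k (S b))
  (j : Z → X) (_ : J.IsBigOpen (Cm n) j) (f : Z → Y) (_ : ContMDiff 𝓘(ℂ, Cm n) 𝓘(ℂ, Cm p) ω f)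
  (i : F → Z) (_ : IsSmoothFibre (Cm n) (Cm p) (Cm d) f i)
  (_ : ∀ D, Δ D ≠ 0 → ∃ t, j (i t) ∉ D)
  (ν : ℕ) (_ : HasRankP n ν k id S)
  (β : Chart n X → Cm n → Matrix (Fin n) (Fin n) ℂ) (_ : IsSemiKahler β)
  (_ : IsGoodFixP n n m ν k id S β)
  (_ : (∃ (νF : ℕ) (βF : Chart d F → Cm d → Matrix (Fin d) (Fin d) ℂ),
      HasRankP d νF k (fun t => j (i t)) S ∧ IsSemiKahler βF ∧
      IsGoodFixP n d m νF k (fun t => j (i t)) S βF) ∨
    ∃ βR : Chart n X → Cm n → Matrix (Fin n) (Fin n) ℂ, IsSemiKahler βR ∧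
      IsRatFix n d m k Δ (fun t => j (i t)) S βR),
  J.kod (Cm d) (fun (D : Set X) t g => ∃ e, J.IsLocalEq (Cm n) D e (j (i t)) ∧
      ∀ᶠ t' in 𝓝 t, g t' = e (j (i t'))) Δ + kodF (n := n) (p := p) Δ j f ≤
    J.kod (Cm n) (fun (D : Set X) x g => J.IsLocalEq (Cm n) D g x) Δ

end Vale.Agent.P281.H723.FL
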