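import Vale.Agent.P281.H723.FS.Conv
import Vale.Agent.P281.H723.FL.Defs
import Vale.Agent.P281.H723.FL.Iface

/-! P281, log canonical pairs with one system: the hypotheses of the final statement imply those of
the theorem. -/

namespace Vale.Agent.P281.FS

open scoped Manifold ContDiff Topology ComplexOrder
open Filter Set

set_option linter.all false

theorem goodOne_of {n d : ℕ} {X F : Type} [TopologicalSpace X] [TopologicalSpace F]
    [ChartedSpace (Cm n) X] [ChartedSpace (Cm d) F]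
    {m : ℕ} {k : Set X → ℕ} {ι : F → X} {N : ℕ} {S : Fin N → X → ℂ}
    (h : GoodOne n d m k ι S) :
    ∃ (ν : ℕ) (β : Form d F), H167.HasRankP d ν k ι S ∧ H167.IsSemiKahler β ∧
      H167.IsGoodFixP n d m ν k ι S β := by
  obtain ⟨ν, β, hβ, hr, h⟩ := h
  exact ⟨ν, β, hr, isSemiKahler_of hβ, h⟩

theorem mainOne_of (hL : H723.FL.MainPartLC) {n p d : ℕ} (hn : n = p + d) {X Z Y F : Type}
    [TopologicalSpace X] [T2Space X] [CompactSpace X] [ConnectedSpace X] [ChartedSpace (Cm n) X]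
    [TopologicalSpace Z] [ChartedSpace (Cm n) Z]
    [TopologicalSpace Y] [T2Space Y] [ConnectedSpace Y] [ChartedSpace (Cm p) Y]
    [TopologicalSpace F] [T2Space F] [CompactSpace F] [ConnectedSpace F] [ChartedSpace (Cm d) F]
    (χ : Form n X) (hχ : IsKahler χ) (Δ : Set X → ℝ) (j : Z → X) (f : Z → Y) (i : F → Z)
    (hi : Setup (Cm n) (Cm p) (Cm d) Δ j f i) (hgood : HasGoodOne n d Δ (fun t => j (i t))) :
    kodR (Cm n) (Cm d) (fun t => j (i t)) Δ + kodF n p Δ j f ≤ kodX (Cm n) Δ := by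
  obtain ⟨hX, hZ, hY, hF, hΔ, hj, hf, hi, hne⟩ := hi
  haveI := hX
  haveI := hZ
  haveI := hY
  haveI := hF
  obtain ⟨m, N, k, S, hm, hk, hS, hg, hgF⟩ := hgood
  obtain ⟨ν, β, hν, hβ, hgX⟩ := goodOne_of hg
  rw [kodF_eq]
  refine hL n p d hn X Z Y F χ (isKahler_of hχ) Δ hΔ m N hm k hk S hS j hj f hf
    i (smoothFibre_of hi) hne ν hν β hβ hgX ?_
  rcases hgF with hgF | hgF
  · exact Or.inl (goodOne_of hgF)
  · exact Or.inr (ratFix_of hgF)

end Vale.Agent.P281.FS
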