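import Vale.Agent.P281.H723.FL.NumI
import Vale.Agent.P281.H167.ML.Iface

/-! P281, theorem U: the fibre side with rational curves, as a proposition. -/

open scoped Manifold ContDiff Topology ComplexOrder
open Set Filter Vale.Agent.P281 Vale.Agent.P272.K Vale.Agent.P281.H713

noncomputable section

namespace Vale.Agent.P281.H723.FL

open Vale.Agent.P281.H368.MFS
open Vale.Agent.P281.H167.ML (RatAtM)

/-- **Theorem U**, the fibre side, with rational curves. -/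
def NumPartR : Prop := ∀ (n p d : ℕ) (_ : n = p + d) (X Z Y F : Type)
  [TopologicalSpace X] [T2Space X] [CompactSpace X] [ConnectedSpace X]
  [ChartedSpace (Cm n) X] [IsManifold 𝓘(ℂ, Cm n) ω X]
  [TopologicalSpace Z] [ChartedSpace (Cm n) Z] [IsManifold 𝓘(ℂ, Cm n) ω Z]
  [TopologicalSpace Y] [T2Space Y] [ConnectedSpace Y]
  [ChartedSpace (Cm p) Y] [IsManifold 𝓘(ℂ, Cm p) ω Y]
  [TopologicalSpace F] [T2Space F] [CompactSpace F] [ConnectedSpace F]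
  [ChartedSpace (Cm d) F] [IsManifold 𝓘(ℂ, Cm d) ω F]
  (χ : Chart n X → Cm n → Matrix (Fin n) (Fin n) ℂ) (_ : IsKahler χ)
  (Δ : Set X → ℝ) (_ : J.IsSNC (Cm n) Δ)
  (m : ℕ) (_ : 0 < m) (k : Set X → ℕ) (_ : ∀ D, (k D : ℝ) = m * Δ D)
  (θ β : Chart n X → Cm n → Matrix (Fin n) (Fin n) ℂ) (_ : IsSemiPos θ) (_ : IsSemiPos β)
  (W : X → ℝ)
  (j : Z → X) (_ : J.IsBigOpen (Cm n) j) (f : Z → Y) (_ : ContMDiff 𝓘(ℂ, Cm n) 𝓘(ℂ, Cm p) ω f)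
  (i : F → Z) (_ : IsSmoothFibre (Cm n) (Cm p) (Cm d) f i)
  (_ : ∀ D, Δ D ≠ 0 → ∃ t, j (i t) ∉ D)
  (_ : Dense {t | (pull (fun t => j (i t)) β (chartAt (Cm d) t) (chartAt (Cm d) t t)).PosDef})
  (ν : ℕ) (_ : ∀ e t, At e t → ((pull (fun t => j (i t)) θ :
    Chart d F → Cm d → Matrix (Fin d) (Fin d) ℂ) e (e t)).rank ≤ ν)
  (_ : ∃ t, ν ≤ (pull (fun t => j (i t)) θ (chartAt (Cm d) t) (chartAt (Cm d) t t)).rank)
  (_ : ∀ t : F, ∃ (r : ℕ) (g : Fin r → X → ℂ) (a : Fin r → ℕ),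
    VolLoc n m (fun (D : Set X) z g => J.IsLocalEq (Cm n) D g z) k W (fun _ _ => 0) θ (j (i t)) g a ∧
    (∀ l, J.dif (Cm d) (fun t => g l (j (i t))) t ≠ 0) ∧
    ∀ l, (∀ᶠ z in 𝓝 (j (i t)), g l z = 0 →
        ∃ᶠ z' in 𝓝 z, g l z' = 0 ∧ RatAtM n Δ (g l) β θ z') ∨
      ∀ᶠ s in 𝓝 t, g l (j (i s)) = 0 →
        ConAt d (fun t => g l (j (i t))) (pull (fun t => j (i t)) β)
          (pull (fun t => j (i t)) θ) s ∨
        SmallAt d ν (fun t => g l (j (i t))) (pull (fun t => j (i t)) θ) s),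
  J.kod (Cm d) (fun (D : Set X) t g => ∃ e, J.IsLocalEq (Cm n) D e (j (i t)) ∧
    ∀ᶠ t' in 𝓝 t, g t' = e (j (i t'))) Δ + TL.kodF (n := n) (p := p) Δ j f ≤
    ((ν : ℕ∞) : WithBot ℕ∞) + TL.kodF (n := n) (p := p) Δ j f

end Vale.Agent.P281.H723.FL
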